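import Vale.Agent.P352.H746.InvDefs
import Vale.Agent.P352.H755.ChDefs
import Vale.Agent.P352.H15.NPDefs
import Vale.Agent.P352.H496.ImpDefs
import Vale.Agent.P352.H246.SubDefs
import Vale.Agent.P352.H246.DomDefs

open MeasureTheory Filter Topology
open scoped ComplexConjugate

namespace Vale.Agent.P352.R2.H104

open GF H246 H496 H755 H746 H15
open UniformSpace (Completion)

noncomputable section

variable {D : Type*} [NormedAddCommGroup D] [InnerProductSpace ℂ D]

/-- Conformal invariance: a scalar field `L` of dimension two, local relative to any choice `Q₁` of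
local fields, improves `T` to a traceless stress tensor whose conformal charges act on all fields
as infinitesimal conformal transformations. -/
def CI (Q : Theory D) (T : Ix → Ix → Fld D) : Prop :=
  ∃ L : Fld D, ∀ Q₁ : Theory D, IsEnl Q Q₁ → ∃ Q₂ : Theory D, IsEnl Q₁ Q₂ ∧
    Q₂.IsScalar L 2 ∧ Q₂.IsStress (improve T L) ∧ IsImpr Q₂ T (improve T L) ∧
    ConfAct Q₂ (improve T L)

/-- The vector `l(f)` belongs to the common domain `D` of the fields, for one test function `f`
whose Fourier transform does not vanish at some null vector `p`. -/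
def InDom (l : Fn → Completion D) : Prop := ∃ (f : Fn) (p : V) (v : D), IsTest f ∧ IsNull p ∧
  ∫ x, Complex.exp (Complex.I * mdot p x) * f x ≠ 0 ∧ l f = (v : Completion D)

/-- The potential `l` is hermitian on the polynomials in the fields in the causal complement of the
support of the test function. -/
def HermPot (Q : Theory D) (l : Fn → Completion D) : Prop :=
  ∀ f X X', In Set.univ f → Al Q (cc (tsupport f)) X X' →
    inner ℂ ((X' Q.vac : D) : Completion D) (l f) =
      inner ℂ (l (bar f)) ((X Q.vac : D) : Completion D)

/-- The two orders of the two dilaton amplitude with the sources `Φ'(a·x)` and `Ψ'(b·x)` on the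
vector `J^m(g) Ω` have the same limit when the cutoffs are removed. -/
def SameLim (Q : Theory D) (J : Ix → Fld D) (G : V → D → D) (κ : V → ℝ) (a b : V) (Φ Ψ : ℝ → ℝ)
    (m : Ix) (g : Fn) : Prop :=
  ∃ c, Tendsto (fun R => Amp Q J G a b Φ
      (fun i => dr i fun x => cut b a κ R x * deriv Ψ (mdot b x)) (J m g Q.vac)) atTop (𝓝 c) ∧
    Tendsto (fun R => Amp Q J G b a Ψ
      (fun i => dr i fun x => cut a b κ R x * deriv Φ (mdot a x)) (J m g Q.vac)) atTop (𝓝 c)

end

end Vale.Agent.P352.R2.H104
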