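import Vale.Agent.P352.H148.V7
import Vale.Agent.P352.H746.V2
import Vale.Agent.P352.H746.Nec3
import Vale.Agent.P352.H746.Reg
import Vale.Agent.P352.H496.InvC
import Vale.Agent.P352.R2.H104.Defs

set_option linter.all false

noncomputable section

open MeasureTheory SchwartzMap Filter Topology
open scoped SchwartzMap ComplexConjugate ENNReal ContDiff

namespace Vale.Agent.P352.R2.H104

open GF (Ix V Fn Sch ev pd bar bas o eta Theory Fld)
open H246 H496 H846 H746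
open H755 (Tst)
open H15 (ctf Adm NullCharges IsEnl npr0)
open UniformSpace (Completion)

variable {D : Type*} [NormedAddCommGroup D] [InnerProductSpace ℂ D]
variable {Q : GF.Theory D} {T : Ix → Ix → GF.Fld D} {J : Ix → GF.Fld D}
  {A : (V → V) → D → D} {K : V → D → D}
  {H : D → D} {alg : Set V → Set (D → D)} {S : V → ℝ → D → D} {G : V → D → D}
  {l : Fn → Completion D}

lemma enl_refl (Q : GF.Theory D) : IsEnl Q Q := ⟨rfl, rfl, fun _ h => h, fun _ h => h⟩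

/-- the local improvement field of a conformally invariant theory -/
lemma CI.imp (h : CI Q T) : ∃ (Q' : GF.Theory D) (L : GF.Fld D), IsEnl Q Q' ∧ Q'.IsScalar L 2 ∧
    ∀ f v, GF.IsTest f → GF.tr (GF.improve T L) f v = 0 := by
  obtain ⟨L, hL⟩ := h
  obtain ⟨Q₂, h1, h2, -, h4, -⟩ := hL Q (enl_refl Q)
  exact ⟨Q₂, L, h1, h2, h4.traceless⟩

lemma ci_of_tr (hT : Q.IsStress T) (hJ : IsVirial Q T J) (h : NullCharges Q T J A K)
    (ht : H121.TrNull T) : CI Q T :=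
  ((H148.main_v7b (A := A) (K := K) hT hJ).1 h).2.1.1 ht

/-- the potential is local if and only if the theory is conformally invariant -/
theorem herm_iff (hT : Q.IsStress T) (hJ : IsVirial Q T J) (h : NullCharges Q T J A K)
    (hl : IsPot Q T l) : HermPot Q l ↔ CI Q T := by
  constructor
  · intro hR
    exact ci_of_tr hT hJ h (tr_of_herm hT hJ h hl hR)
  · intro hc
    obtain ⟨Q', L, he, hL, htr⟩ := hc.imp
    exact herm_of_L he hL fun f hf => H496.pot_of_L hT he hL htr hl hf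

theorem inv_iff (hT : Q.IsStress T) (hJ : IsVirial Q T J) (h : NullCharges Q T J A K)
    (N : CNet Q H alg S) (Gg : Gnr Q alg S G) (hl : IsPot Q T l) : H746.Inv S l ↔ CI Q T := by
  constructor
  · intro hi
    exact ci_of_tr hT hJ h (tr_of_inv' hT hJ N h hl hi)
  · intro hc
    obtain ⟨Q', L, he, hL, htr⟩ := hc.imp
    exact inv_of_L hT N Gg he hL htr hl

theorem form_iff (hT : Q.IsStress T) (hJ : IsVirial Q T J) (h : NullCharges Q T J A K)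
    (N : CNet Q H alg S) (Gg : Gnr Q alg S G) (hl : IsPot Q T l) :
    (∃ Λ, IsForm Q T l Λ) ↔ CI Q T := by
  constructor
  · rintro ⟨Λ, hF⟩
    exact ci_of_tr hT hJ h (tr_of_form hT hJ h hl hF)
  · intro hc
    exact (criterion2 hT N.toNet hl).2.1 ((inv_iff hT hJ h N Gg hl).2 hc)

theorem dom_mom (N : CNet Q H alg S) (Gg : Gnr Q alg S G) (hd : InDom l) :
    ∃ a, IsNull a ∧ H246D.Mom G l a := by
  obtain ⟨f, p, v, hf, hp, hne, hv⟩ := hd
  refine ⟨H15.a0, npr0.1, f, p, (inner ℂ v (G H15.a0 v) : ℂ).re, hf, hp, hne, fun w => ?_⟩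
  rw [hv, Completion.inner_coe]
  exact G_cs N Gg npr0.1 _ _

theorem ci_dom (hT : Q.IsStress T) (hl : IsPot Q T l) (hc : CI Q T) : InDom l := by
  obtain ⟨Q', L, he, hL, htr⟩ := hc.imp
  obtain ⟨f, p, hf, hp, hne⟩ := exists_ft
  exact ⟨f, p, L f Q.vac, hf, hp, hne, H496.pot_of_L hT he hL htr hl hf⟩

theorem mom_iff (hT : Q.IsStress T) (hJ : IsVirial Q T J) (h : NullCharges Q T J A K)
    (N : CNet Q H alg S) (Gg : Gnr Q alg S G) (hl : IsPot Q T l) :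
    (∃ a, IsNull a ∧ H246D.Mom G l a) ↔ CI Q T := by
  constructor
  · intro hm
    exact (inv_iff hT hJ h N Gg hl).1 (H246D.mom_inv hT N Gg hl hm)
  · intro hc
    exact dom_mom N Gg (ci_dom hT hl hc)

theorem dom_iff (hT : Q.IsStress T) (hJ : IsVirial Q T J) (h : NullCharges Q T J A K)
    (N : CNet Q H alg S) (Gg : Gnr Q alg S G) (hl : IsPot Q T l) : InDom l ↔ CI Q T :=
  ⟨fun hd => (mom_iff hT hJ h N Gg hl).1 (dom_mom N Gg hd), fun hc => ci_dom hT hl hc⟩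

theorem same_iff (hT : Q.IsStress T) (hJ : IsVirial Q T J) (h : NullCharges Q T J A K)
    (N : CNet Q H alg S) (Gg : Gnr Q alg S G) (hl : IsPot Q T l) {κ : V → ℝ} (hκ : Tst κ)
    (hκ1 : ∀ᶠ x in 𝓝 (0 : V), κ x = 1) {a b : V} {Φ Ψ : ℝ → ℝ} {m : Ix} {g : Fn}
    (ha : IsNull a) (hb : IsNull b) (hab : GF.mdot a b = 1) (hΦ : Tst Φ) (hΨ : Tst Ψ)
    (hg : GF.IsTest g) (hfw : Fwd g)
    (hne : ∫ y : V, ((a m * deriv (deriv (deriv Φ)) (GF.mdot a y) *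
        deriv (deriv Ψ) (GF.mdot b y) - b m * deriv (deriv (deriv Ψ)) (GF.mdot b y) *
        deriv (deriv Φ) (GF.mdot a y) : ℝ) : ℂ) * g y ≠ 0) :
    SameLim Q J G κ a b Φ Ψ m g ↔ CI Q T := by
  constructor
  · intro hs
    exact (inv_iff hT hJ h N Gg hl).1
      (one_amp hT N Gg hJ hl hκ hκ1 ha hb hab hΦ hΨ hg hfw hne hs)
  · intro hc
    exact (cross_iff hT N Gg hJ hl hκ hκ1).2 ((inv_iff hT hJ h N Gg hl).2 hc) a b Φ Ψ m g ha hb
      hab hΦ hΨ hg hfw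

theorem main (hT : Q.IsStress T) (hJ : IsVirial Q T J) (h : NullCharges Q T J A K) :
    ∃ l : Fn → Completion D, IsPot Q T l ∧ (∀ l', IsPot Q T l' → ∀ f, GF.IsTest f → l' f = l f) ∧
      (HermPot Q l ↔ CI Q T) ∧
      ∀ (H : D → D) (alg : Set V → Set (D → D)) (S : V → ℝ → D → D) (G : V → D → D),
        CNet Q H alg S → Gnr Q alg S G →
        (Inv S l ↔ CI Q T) ∧ ((∃ Λ, IsForm Q T l Λ) ↔ CI Q T) ∧ (InDom l ↔ CI Q T) ∧
        ((∃ a, IsNull a ∧ H246D.Mom G l a) ↔ CI Q T) ∧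
        ((∃ a, IsNull a ∧ Reg Q G l a) ↔ CI Q T) ∧
        ((∃ a, IsNull a ∧ Small Q S l a) ↔ CI Q T) ∧
        ((∃ a, IsNull a ∧ ∀ f c, GF.IsTest f → Val l (G a (GF.tr T f Q.vac)) c → c = 0) ↔
          CI Q T) ∧
        ∃ k : ℂ, (k = 0 ↔ CI Q T) ∧ ∀ κ : V → ℝ, Tst κ → (∀ᶠ x in 𝓝 (0 : V), κ x = 1) →
          TwoDilaton Q J G l κ k ∧ (Crossing Q J G κ ↔ CI Q T) ∧
          ∀ (a b : V) (Φ Ψ : ℝ → ℝ) (m : Ix) (g : Fn), IsNull a → IsNull b →
            GF.mdot a b = 1 → Tst Φ → Tst Ψ → GF.IsTest g → Fwd g →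
            ∫ y : V, ((a m * deriv (deriv (deriv Φ)) (GF.mdot a y) *
              deriv (deriv Ψ) (GF.mdot b y) - b m * deriv (deriv (deriv Ψ)) (GF.mdot b y) *
              deriv (deriv Φ) (GF.mdot a y) : ℝ) : ℂ) * g y ≠ 0 →
            (SameLim Q J G κ a b Φ Ψ m g ↔ CI Q T) := by
  obtain ⟨l, hl, -⟩ := H246.main hT
  refine ⟨l, hl, fun l' hl' f hf => (hl'.unique hl f hf).symm, herm_iff hT hJ h hl,
    fun H alg S G N Gg => ?_⟩
  have hi := inv_iff hT hJ h N Gg hl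
  refine ⟨hi, form_iff hT hJ h N Gg hl, dom_iff hT hJ h N Gg hl, mom_iff hT hJ h N Gg hl,
    (reg_iff hT N Gg hl).trans hi, ((criterion2 hT N.toNet hl).2.2 N.toCvt).trans hi,
    (kappa_iff hT N Gg hl).trans hi, ?_⟩
  obtain ⟨k, hk, hk2⟩ := exists_two hT N Gg hJ hl
  refine ⟨k, hk.trans hi, fun κ hκ hκ1 => ⟨hk2 κ hκ hκ1, (cross_iff hT N Gg hJ hl hκ hκ1).trans hi,
    ?_⟩⟩
  intro a b Φ Ψ m g ha hb hab hΦ hΨ hg hfw hne
  exact same_iff hT hJ h N Gg hl hκ hκ1 ha hb hab hΦ hΨ hg hfw hne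

theorem main' (hT : Q.IsStress T) (hJ : IsVirial Q T J) (h : NullCharges Q T J A K) :
    ∃ l : Fn → Completion D, IsPot Q T l ∧ (∀ l', IsPot Q T l' → ∀ f, GF.IsTest f → l' f = l f) ∧
      (HermPot Q l ↔ CI Q T) ∧
      ∀ (H : D → D) (alg : Set V → Set (D → D)) (S : V → ℝ → D → D) (G : V → D → D),
        CNet Q H alg S → Gnr Q alg S G →
        (Inv S l ↔ CI Q T) ∧ ((∃ Λ, IsForm Q T l Λ) ↔ CI Q T) ∧ (InDom l ↔ CI Q T) ∧
        ((∃ a, IsNull a ∧ H246D.Mom G l a) ↔ CI Q T) ∧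
        ((∃ a, IsNull a ∧ Reg Q G l a) ↔ CI Q T) ∧
        ((∃ a, IsNull a ∧ ∀ f c, GF.IsTest f → Val l (G a (GF.tr T f Q.vac)) c → c = 0) ↔
          CI Q T) ∧
        ∃ k : ℂ, (k = 0 ↔ CI Q T) ∧ ∀ κ : V → ℝ, Tst κ → (∀ᶠ x in 𝓝 (0 : V), κ x = 1) →
          TwoDilaton Q J G l κ k ∧ (Crossing Q J G κ ↔ CI Q T) ∧
          ∀ (a b : V) (Φ Ψ : ℝ → ℝ) (m : Ix) (g : Fn), IsNull a → IsNull b →
            GF.mdot a b = 1 → Tst Φ → Tst Ψ → GF.IsTest g → Fwd g →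
            ∫ y : V, ((a m * deriv (deriv (deriv Φ)) (GF.mdot a y) *
              deriv (deriv Ψ) (GF.mdot b y) - b m * deriv (deriv (deriv Ψ)) (GF.mdot b y) *
              deriv (deriv Φ) (GF.mdot a y) : ℝ) : ℂ) * g y ≠ 0 →
            (SameLim Q J G κ a b Φ Ψ m g ↔ CI Q T) := by
  obtain ⟨l, hl, hu, hh, H1⟩ := main (A := A) (K := K) hT hJ h
  refine ⟨l, hl, hu, hh, fun H alg S G N Gg => ?_⟩
  obtain ⟨h1, h2, h3, h4, h5, -, h7, h8⟩ := H1 H alg S G N Gg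
  exact ⟨h1, h2, h3, h4, h5, h7, h8⟩

end Vale.Agent.P352.R2.H104

end
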